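import Vale.Agent.P087.Separation
import Vale.Agent.P087.Cumul
import Vale.Agent.P087.Group
import Vale.Agent.P087.Real
import Vale.Agent.P087.Smooth
import Vale.Agent.P087.Gauss
import Vale.Agent.P087.Upper

/-!
Finite microstates free entropy does not imply equality with non-microstates free entropy.
-/

open Vale.Agent.P087

/-- Some self-adjoint tuple in a tracial von Neumann algebra has `⊥ < χ < χ* < ⊤`. -/
theorem Vale.Agent.Results.P087.EntropiesDiffer.result :
    ∃ (H : Type) (_ : NormedAddCommGroup H) (_ : InnerProductSpace ℂ H) (_ : CompleteSpace H)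
      (A : VonNeumannAlgebra H) (Ω : H) (N : ℕ) (Z : Fin N → H →L[ℂ] H),
      1 ≤ N ∧ ‖Ω‖ = 1 ∧ IsTracial A Ω ∧ IsFaithfulOn A Ω ∧ IsTupleIn A Z ∧
      ⊥ < chi (law Ω Z) ∧ chi (law Ω Z) < chiStar (law Ω Z) ∧ chiStar (law Ω Z) < ⊤ := by
  obtain ⟨ι, A, Ω, N, Z, hN, hΩ, htr, hfa, hZ, h⟩ :=
    separation cumulStmt groupStmt realStmt smoothStmt gaussStmt upperStmt
  exact ⟨_, _, _, _, A, Ω, N, Z, hN, hΩ, htr, hfa, hZ, h⟩
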